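import Vale.Agent.P181.DU.H556.Stab
import Vale.Agent.P181.DU.H248.Sum
import Vale.Agent.P181.DU.Defs

set_option autoImplicit false

/-!
# P181, DU (U3): the lossless lower bound
-/

open MvPolynomial

namespace Vale.Agent.P181.DU.H556

open Vale.Agent.P181.T4 (HW)
open Vale.Agent.P181.SZ (TI mem_TI)
open Vale.Agent.P181.DG (NT KT)
open Vale.Agent.P181.DU.H248 (MD mem_MD sum_le)

/-- **(U3)** -/
theorem lowU : LowU := by
  classical
  intro a b m S mu hS hSa hw
  have hfin : FiniteDimensional ℂ
      ↥(MD m b a mu ⊓ ⨅ i : Fin m, LinearMap.ker (dO (κ := Fin b) (S - 1) i)) :=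
    Submodule.finiteDimensional_of_le (S₂ := MD m b a mu) inf_le_left
  have h1 := sum_le a b m S mu hSa
    (MD m b a mu ⊓ ⨅ i : Fin m, LinearMap.ker (dO (κ := Fin b) (S - 1) i))
    (fun F hF h => by
      refine Submodule.mem_inf.2 ⟨hF, (Submodule.mem_iInf _).2 fun i => ?_⟩
      rw [LinearMap.mem_ker]
      ext u
      rw [dO, LinearMap.sum_apply, coeff_sum, coeff_zero, ← h i u]
      refine Finset.sum_congr rfl fun c _ => ?_
      rw [coeff_dc]
      have h2 : (cg u c < S - 1) ↔ (∑ a, u (a, c) + 1 < S) := by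
        rw [cg]
        omega
      simp only [h2]
      split_ifs
      · rw [mul_comm]
        rfl
      · rfl)
  have h2 := interU (S - 1) (MD m b a mu) (fun p hp => stab mu (by omega) hp)
    (fun p hp v hv => by
      have h3 := ((mem_MD.1 hp).1).1 v hv
      have h4 : ∑ j, cg v j = ∑ i, mu i := by
        simp only [cg]
        rw [Finset.sum_comm]
        exact Finset.sum_congr rfl fun i _ => h3 i
      rw [h4, Fintype.card_fin]
      omega)
  have h3 : Module.finrank ℂ
      ↥(MD m b a mu ⊓ ⨅ i : Fin m, LinearMap.ker (tO (κ := Fin b) i)) ≤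
      Module.finrank ℂ (TI b a m mu) := by
    apply Submodule.finrank_mono
    rintro p ⟨hp, hk⟩
    obtain ⟨h4, h5, h6⟩ := mem_MD.1 hp
    refine mem_TI.2 ⟨h4, h5, h6, fun i => ?_⟩
    have h7 := (Submodule.mem_iInf _).1 hk i
    rw [LinearMap.mem_ker, tO, LinearMap.sum_apply] at h7
    exact h7
  exact (h1.trans h2).trans h3

end Vale.Agent.P181.DU.H556
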