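import Vale.Agent.P181.DU.H556.Pos2

set_option autoImplicit false

/-!
# P181, DU: the kernel of the translations is at least as large as the kernel of the truncated ones
-/

open MvPolynomial

namespace Vale.Agent.P181.DU.H556

variable {m : ℕ} {κ : Type} [Fintype κ] [DecidableEq κ]

/-- The translation. -/
noncomputable def tO (i : Fin m) : Po m κ →ₗ[ℂ] Po m κ :=
  ∑ j, (pderiv (R := ℂ) (i, j)).toLinearMap

/-- The part of the derivative which lowers the excess. -/
noncomputable def uc (s : ℕ) (i : Fin m) (j : κ) : Po m κ →ₗ[ℂ] Po m κ :=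
  mkL fun v => if cg v j ≤ s then 0 else monomial (v - e1 i j) (v (i, j) : ℂ)

lemma tO_eq (s : ℕ) (i : Fin m) :
    (tO i : Po m κ →ₗ[ℂ] Po m κ) = dO s i + ∑ j, uc s i j := by
  refine ext_mono fun v => ?_
  simp only [tO, dO, LinearMap.add_apply, LinearMap.sum_apply, ← Finset.sum_add_distrib]
  refine Finset.sum_congr rfl fun j _ => ?_
  have h : (pderiv (R := ℂ) (i, j)).toLinearMap (monomial v 1 : Po m κ) =
      monomial (v - e1 i j) (v (i, j) : ℂ) := by
    change pderiv (i, j) (monomial v (1 : ℂ)) = _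
    rw [pderiv_monomial, one_mul, e1]
  rw [h, dc, uc, mkL_monomial, mkL_monomial, one_smul, one_smul]
  split_ifs
  · rw [add_zero]
  · rw [zero_add]

omit [Fintype κ] [DecidableEq κ] in
lemma pd_comm (x y : Fin m × κ) (p : Po m κ) :
    pderiv x (pderiv y p) = pderiv y (pderiv x p) := by
  classical
  ext u
  rw [coeff_pderiv, coeff_pderiv, coeff_pderiv, coeff_pderiv, add_right_comm]
  by_cases h : x = y
  · subst h
    rfl
  · simp only [Finsupp.add_apply, Finsupp.single_apply, if_neg h, if_neg (Ne.symm h), add_zero]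
    ring

omit [DecidableEq κ] in
lemma tO_comm (i k : Fin m) (p : Po m κ) : tO i (tO k p) = tO k (tO i p) := by
  simp only [tO, LinearMap.sum_apply, map_sum]
  rw [Finset.sum_comm]
  refine Finset.sum_congr rfl fun j _ => Finset.sum_congr rfl fun l _ => ?_
  exact pd_comm _ _ p

/-- The excess. -/
def ec (s : ℕ) (v : Ex m κ) : ℕ := ∑ j, (cg v j - s)

/-- The part of excess `e`. -/
noncomputable def pe (s e : ℕ) : Po m κ →ₗ[ℂ] Po m κ :=
  mkL fun v => if ec s v = e then monomial v 1 else 0

omit [DecidableEq κ] in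
lemma coeff_pe (s e : ℕ) (p : Po m κ) (u : Ex m κ) :
    coeff u (pe s e p) = if ec s u = e then coeff u p else 0 := by
  classical
  induction p using MvPolynomial.induction_on' with
  | monomial v y =>
    rw [pe, mkL_monomial, coeff_smul]
    by_cases h : v = u
    · subst h
      by_cases h2 : ec s v = e
      · rw [if_pos h2, if_pos h2, coeff_monomial, coeff_monomial, if_pos rfl, if_pos rfl,
          smul_eq_mul, mul_one]
      · rw [if_neg h2, if_neg h2, coeff_zero, smul_zero]
    · rw [coeff_monomial, if_neg h, ite_self]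
      split_ifs
      · rw [coeff_monomial, if_neg h, smul_zero]
      · rw [coeff_zero, smul_zero]
  | add p p' hp hp' =>
    rw [map_add, coeff_add, hp, hp', coeff_add]
    split_ifs
    · rfl
    · rw [add_zero]

lemma ec_add (s : ℕ) (v : Ex m κ) (i : Fin m) (j : κ) :
    ec s (v + e1 i j) = ec s v + if s ≤ cg v j then 1 else 0 := by
  rw [ec, ec, ← Finset.add_sum_erase _ _ (Finset.mem_univ j),
    ← Finset.add_sum_erase Finset.univ (fun l => cg v l - s) (Finset.mem_univ j)]
  have h : ∑ l ∈ Finset.univ.erase j, (cg (v + e1 i j) l - s) =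
      ∑ l ∈ Finset.univ.erase j, (cg v l - s) := by
    refine Finset.sum_congr rfl fun l hl => ?_
    rw [cg_add, if_neg (Finset.ne_of_mem_erase hl).symm, add_zero]
  rw [h, cg_add, if_pos rfl]
  split_ifs <;> omega

lemma pe_fO (s e : ℕ) (i : Fin m) (p : Po m κ) : pe s e (fO s i p) = fO s i (pe s e p) := by
  have h : pe s e ∘ₗ fO s i = fO s i ∘ₗ (pe s e : Po m κ →ₗ[ℂ] Po m κ) := by
    refine ext_mono fun v => ?_
    simp only [fO, LinearMap.comp_apply, LinearMap.sum_apply, map_sum]
    refine Finset.sum_congr rfl fun j _ => ?_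
    rw [fc, pe, mkL_monomial, mkL_monomial, one_smul, one_smul, mkL_monomial, ec_add]
    by_cases hn : s ≤ cg v j
    · have h0 : s - cg v j = 0 := by omega
      rw [h0, Nat.cast_zero, zero_smul]
      split_ifs
      · rw [mkL_monomial, h0, Nat.cast_zero, monomial_zero, smul_zero]
      · rw [map_zero]
    · rw [if_neg hn, add_zero]
      split_ifs
      · rw [mkL_monomial, one_smul, smul_monomial, smul_eq_mul, mul_one]
      · rw [smul_zero, map_zero]
  exact LinearMap.congr_fun h p

lemma pe_dO (s e : ℕ) (i : Fin m) (p : Po m κ) : pe s e (dO s i p) = dO s i (pe s e p) := by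
  have h : pe s e ∘ₗ dO s i = dO s i ∘ₗ (pe s e : Po m κ →ₗ[ℂ] Po m κ) := by
    refine ext_mono fun v => ?_
    simp only [dO, LinearMap.comp_apply, LinearMap.sum_apply, map_sum]
    refine Finset.sum_congr rfl fun j _ => ?_
    rw [dc, pe, mkL_monomial, mkL_monomial, one_smul, one_smul]
    by_cases hn : cg v j ≤ s
    · rw [if_pos hn, mkL_monomial]
      by_cases h0 : v (i, j) = 0
      · rw [h0, Nat.cast_zero, zero_smul]
        split_ifs
        · rw [mkL_monomial, if_pos hn, h0, Nat.cast_zero, monomial_zero, smul_zero]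
        · rw [map_zero]
      · have h1 : 1 ≤ v (i, j) := by omega
        have hcm : cg (v - e1 i j) j + 1 = cg v j := by
          have h3 := sub_add_e1 h1
          conv_rhs => rw [← h3]
          rw [cg_add, if_pos rfl]
        have hec : ec s (v - e1 i j) = ec s v := by
          have h3 := ec_add s (v - e1 i j) i j
          rw [sub_add_e1 h1, if_neg (by omega), add_zero] at h3
          exact h3.symm
        rw [hec]
        split_ifs
        · rw [mkL_monomial, if_pos hn, one_smul, smul_monomial, smul_eq_mul, mul_one]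
        · rw [smul_zero, map_zero]
    · rw [if_neg hn, map_zero]
      split_ifs
      · rw [mkL_monomial, if_neg hn, smul_zero]
      · rw [map_zero]
  exact LinearMap.congr_fun h p

lemma pe_uc (s e : ℕ) (i : Fin m) (j : κ) (p : Po m κ) :
    pe s e (uc s i j p) = uc s i j (pe s (e + 1) p) := by
  have h : pe s e ∘ₗ uc s i j = uc s i j ∘ₗ (pe s (e + 1) : Po m κ →ₗ[ℂ] Po m κ) := by
    refine ext_mono fun v => ?_
    simp only [LinearMap.comp_apply]
    rw [uc, pe, pe, mkL_monomial, mkL_monomial, one_smul, one_smul]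
    by_cases hn : cg v j ≤ s
    · rw [if_pos hn, map_zero]
      split_ifs
      · rw [mkL_monomial, if_pos hn, smul_zero]
      · rw [map_zero]
    · rw [if_neg hn, mkL_monomial]
      by_cases h0 : v (i, j) = 0
      · rw [h0, Nat.cast_zero, zero_smul]
        split_ifs
        · rw [mkL_monomial, if_neg hn, h0, Nat.cast_zero, monomial_zero, smul_zero]
        · rw [map_zero]
      · have h1 : 1 ≤ v (i, j) := by omega
        have hcm : cg (v - e1 i j) j + 1 = cg v j := by
          have h3 := sub_add_e1 h1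
          conv_rhs => rw [← h3]
          rw [cg_add, if_pos rfl]
        have hec : ec s (v - e1 i j) + 1 = ec s v := by
          have h3 := ec_add s (v - e1 i j) i j
          rw [sub_add_e1 h1, if_pos (by omega)] at h3
          exact h3.symm
        by_cases h4 : ec s (v - e1 i j) = e
        · rw [if_pos h4, if_pos (by omega), mkL_monomial, if_neg hn, one_smul, smul_monomial,
            smul_eq_mul, mul_one]
        · rw [if_neg h4, if_neg (by omega), smul_zero, map_zero]
  exact LinearMap.congr_fun h p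

/-- **(b)** -/
theorem closed_zero (s : ℕ) (H : Fin m → Po m κ) (hcl : ∀ i k, tO k (H i) = tO i (H k))
    (hf : ∑ i, fO s i (H i) = 0)
    (hs : ∀ i v, coeff v (H i) ≠ 0 →
      ∑ j, (if cg v j ≤ s then cg v j else 0) < ∑ j, (s - cg v j)) (i : Fin m) : H i = 0 := by
  classical
  obtain ⟨N, hN⟩ : ∃ N, ∀ i, ∀ v ∈ (H i).support, ec s v < N := by
    refine ⟨(Finset.univ.biUnion fun i => (H i).support).sup (ec s) + 1, fun i v hv => ?_⟩
    apply Nat.lt_succ_of_le
    exact Finset.le_sup (f := ec s) (Finset.mem_biUnion.2 ⟨i, Finset.mem_univ i, hv⟩)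
  have key : ∀ n e, N ≤ e + n → ∀ i, pe s e (H i) = 0 := by
    intro n
    induction n with
    | zero =>
      intro e he i
      ext v
      rw [coeff_pe, coeff_zero]
      split_ifs with h
      · by_contra hne
        have := hN i v (mem_support_iff.2 hne)
        omega
      · rfl
    | succ n ih =>
      intro e he
      have h1 : ∀ k, pe s (e + 1) (H k) = 0 := ih (e + 1) (by omega)
      have h2 : ∀ i k, pe s e (tO k (H i)) = dO s k (pe s e (H i)) := by
        intro i k
        rw [tO_eq s k, LinearMap.add_apply, LinearMap.sum_apply, map_add, map_sum, pe_dO]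
        have h3 : ∑ j, pe s e (uc s k j (H i)) = 0 :=
          Finset.sum_eq_zero fun j _ => by rw [pe_uc, h1, map_zero]
        rw [h3, add_zero]
      refine posU s (fun i => pe s e (H i)) (fun i k => ?_) ?_ fun i v hv => ?_
      · rw [← h2, ← h2, hcl]
      · have h4 := congrArg (pe s e) hf
        rw [map_sum, map_zero] at h4
        rw [← h4]
        exact Finset.sum_congr rfl fun i _ => (pe_fO s e i (H i)).symm
      · apply hs i v
        intro h5
        apply hv
        rw [coeff_pe, h5, ite_self]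
  ext v
  have h := congrArg (coeff v) (key N (ec s v) (by omega) i)
  rw [coeff_pe, if_pos rfl] at h
  exact h

/-- **(a)** -/
theorem range_ker (s : ℕ) (g : Fin m → Po m κ)
    (h : ∀ i, dO s i (∑ k, fO s k (g k)) = 0) : ∑ k, fO s k (g k) = 0 := by
  have h1 : (BL (cw s) (∑ k, fO s k (g k)) (∑ k, fO s k (g k))).re = 0 := by
    have h2 : BL (cw s) (∑ k, fO s k (g k)) (∑ k, fO s k (g k)) = 0 := by
      conv_lhs => rw [map_sum (BL (cw s)), AddMonoidHom.finsetSum_apply]
      exact Finset.sum_eq_zero fun i _ => by rw [adj_fO, h i, map_zero]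
    rw [h2, Complex.zero_re]
  rw [BL_self] at h1
  rw [← MvPolynomial.support_eq_empty]
  by_contra hne
  obtain ⟨v, hv⟩ := Finset.nonempty_of_ne_empty hne
  have h3 := Finset.sum_pos (s := (∑ k, fO s k (g k)).support)
    (f := fun v => cw s v * Complex.normSq (coeff v (∑ k, fO s k (g k))))
    (fun v hv => mul_pos (cw_pos s v) (Complex.normSq_pos.2 (mem_support_iff.1 hv))) ⟨v, hv⟩
  linarith

lemma coeff_tO (i : Fin m) (p : Po m κ) (u : Ex m κ) (h : coeff u (tO i p) ≠ 0) :
    ∃ j, coeff (u + e1 i j) p ≠ 0 := by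
  by_contra hcon
  push Not at hcon
  apply h
  rw [tO, LinearMap.sum_apply, coeff_sum]
  refine Finset.sum_eq_zero fun j _ => ?_
  have h1 := hcon j
  change coeff u (pderiv (i, j) p) = 0
  rw [coeff_pderiv]
  rw [show u + Finsupp.single (i, j) 1 = u + e1 i j from rfl, h1]
  simp

/-- **The comparison of the kernels.** -/
theorem interU (s : ℕ) (M : Submodule ℂ (Po m κ)) [FiniteDimensional ℂ M]
    (hM : ∀ p ∈ M, ∑ i, fO s i (tO i p) ∈ M)
    (hdeg : ∀ p ∈ M, ∀ v, coeff v p ≠ 0 → 2 * ∑ j, cg v j ≤ Fintype.card κ * s + 1) :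
    Module.finrank ℂ ↥(M ⊓ ⨅ i : Fin m, LinearMap.ker (dO s i)) ≤
      Module.finrank ℂ ↥(M ⊓ ⨅ i : Fin m, LinearMap.ker (tO (κ := κ) i)) := by
  obtain ⟨T, hT⟩ : ∃ T : Po m κ →ₗ[ℂ] Po m κ, T = ∑ i, fO s i ∘ₗ tO i := ⟨_, rfl⟩
  have hTp : ∀ p, T p = ∑ i, fO s i (tO i p) := fun p => by
    rw [hT, LinearMap.sum_apply]
    rfl
  have hmap : M.map T ≤ M := by
    rintro _ ⟨p, hp, rfl⟩
    rw [hTp]
    exact hM p hp
  have hinf : M.map T ⊓ (M ⊓ ⨅ i : Fin m, LinearMap.ker (dO s i)) = ⊥ := by
    rw [eq_bot_iff]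
    rintro q ⟨⟨p, hp, rfl⟩, -, hq⟩
    have hq' : ∀ i, dO s i (∑ k, fO s k (tO k p)) = 0 := by
      intro i
      have h1 := (Submodule.mem_iInf _).1 hq i
      rw [LinearMap.mem_ker, hTp] at h1
      exact h1
    rw [Submodule.mem_bot, hTp]
    exact range_ker s (fun k => tO k p) hq'
  have h1 := Submodule.finrank_sup_add_finrank_inf_eq (M.map T)
    (M ⊓ ⨅ i : Fin m, LinearMap.ker (dO s i))
  rw [hinf, finrank_bot, add_zero] at h1
  have h2 : Module.finrank ℂ ↥(M.map T ⊔ (M ⊓ ⨅ i : Fin m, LinearMap.ker (dO s i))) ≤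
      Module.finrank ℂ M :=
    Submodule.finrank_mono (sup_le hmap inf_le_left)
  have h3 := LinearMap.finrank_range_add_finrank_ker (T.domRestrict M)
  rw [LinearMap.range_domRestrict] at h3
  have h4 : Module.finrank ℂ (LinearMap.ker (T.domRestrict M)) ≤
      Module.finrank ℂ ↥(M ⊓ ⨅ i : Fin m, LinearMap.ker (tO (κ := κ) i)) := by
    rw [← Submodule.finrank_map_subtype_eq M (LinearMap.ker (T.domRestrict M))]
    apply Submodule.finrank_mono
    rintro q ⟨⟨p, hp⟩, hk, rfl⟩
    have hk' : ∑ i, fO s i (tO i p) = 0 := by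
      have : T p = 0 := hk
      rw [← hTp, this]
    refine ⟨hp, (Submodule.mem_iInf _).2 fun i => ?_⟩
    rw [LinearMap.mem_ker]
    refine closed_zero s (fun i => tO i p) (fun i k => tO_comm k i p) hk' (fun i v hv => ?_) i
    obtain ⟨j, hj⟩ := coeff_tO i p v hv
    have h5 := hdeg p hp _ hj
    have h6 : ∑ l, cg (v + e1 i j) l = ∑ l, cg v l + 1 := by
      simp only [cg_add, Finset.sum_add_distrib, Finset.sum_ite_eq, Finset.mem_univ, if_true]
    have h7 : ∑ l, ((if cg v l ≤ s then cg v l else 0) + s) ≤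
        ∑ l, ((s - cg v l) + 2 * cg v l) :=
      Finset.sum_le_sum fun l _ => by split_ifs <;> omega
    rw [Finset.sum_add_distrib, Finset.sum_add_distrib, ← Finset.mul_sum, Finset.sum_const,
      Finset.card_univ, smul_eq_mul] at h7
    omega
  omega

end Vale.Agent.P181.DU.H556
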