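import Mathlib

set_option autoImplicit false

/-!
# P181, DU: the positivity lemma for the truncated translations
-/

open MvPolynomial

namespace Vale.Agent.P181.DU.H556

variable {m : ℕ} {κ : Type}

/-- The exponents. -/
abbrev Ex (m : ℕ) (κ : Type) := Fin m × κ →₀ ℕ

/-- The polynomials. -/
abbrev Po (m : ℕ) (κ : Type) := MvPolynomial (Fin m × κ) ℂ

/-! ### The form -/

/-- The Hermitian form with weights `c`. -/
noncomputable def Bw (c : Ex m κ → ℝ) (p q : Po m κ) : ℂ :=
  ∑ v ∈ p.support, (c v : ℂ) * (starRingEnd ℂ (coeff v p)) * coeff v q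

lemma Bw_eq (c : Ex m κ → ℝ) (p q : Po m κ) {F : Finset (Ex m κ)} (hF : p.support ⊆ F) :
    Bw c p q = ∑ v ∈ F, (c v : ℂ) * (starRingEnd ℂ (coeff v p)) * coeff v q := by
  apply Finset.sum_subset hF
  intro v _ hv
  rw [notMem_support_iff.1 hv, map_zero, mul_zero, zero_mul]

lemma Bw_add_right (c : Ex m κ → ℝ) (p q q' : Po m κ) :
    Bw c p (q + q') = Bw c p q + Bw c p q' := by
  rw [Bw, Bw, Bw, ← Finset.sum_add_distrib]
  exact Finset.sum_congr rfl fun v _ => by rw [coeff_add, mul_add]

lemma Bw_add_left (c : Ex m κ → ℝ) (p p' q : Po m κ) :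
    Bw c (p + p') q = Bw c p q + Bw c p' q := by
  classical
  rw [Bw_eq c (p + p') q (support_add (p := p) (q := p')),
    Bw_eq c p q (Finset.subset_union_left (s₁ := p.support) (s₂ := p'.support)),
    Bw_eq c p' q (Finset.subset_union_right (s₁ := p.support) (s₂ := p'.support)),
    ← Finset.sum_add_distrib]
  exact Finset.sum_congr rfl fun v _ => by rw [coeff_add, map_add]; ring

/-- The form as a bi-additive map. -/
noncomputable def BL (c : Ex m κ → ℝ) : Po m κ →+ Po m κ →+ ℂ :=
  AddMonoidHom.mk' (fun p => AddMonoidHom.mk' (Bw c p) (Bw_add_right c p))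
    (fun p p' => AddMonoidHom.ext fun q => Bw_add_left c p p' q)

lemma BL_apply (c : Ex m κ → ℝ) (p q : Po m κ) : BL c p q = Bw c p q := rfl

lemma BL_monomial_left (c : Ex m κ → ℝ) (u : Ex m κ) (x : ℂ) (q : Po m κ) :
    BL c (monomial u x) q = (c u : ℂ) * starRingEnd ℂ x * coeff u q := by
  classical
  rw [BL_apply, Bw_eq c _ q (F := {u}) support_monomial_subset, Finset.sum_singleton,
    coeff_monomial, if_pos rfl]

lemma BL_herm (c : Ex m κ → ℝ) (p q : Po m κ) : BL c q p = starRingEnd ℂ (BL c p q) := by
  classical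
  rw [BL_apply, BL_apply,
    Bw_eq c q p (Finset.subset_union_right (s₁ := p.support) (s₂ := q.support)),
    Bw_eq c p q (Finset.subset_union_left (s₁ := p.support) (s₂ := q.support)), map_sum]
  exact Finset.sum_congr rfl fun v _ => by
    rw [map_mul, map_mul, Complex.conj_conj, Complex.conj_ofReal]; ring

lemma BL_monomial_right (c : Ex m κ → ℝ) (v : Ex m κ) (y : ℂ) (p : Po m κ) :
    BL c p (monomial v y) = (c v : ℂ) * starRingEnd ℂ (coeff v p) * y := by
  rw [BL_herm c (monomial v y) p, BL_monomial_left, map_mul, map_mul, Complex.conj_conj,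
    Complex.conj_ofReal]
  ring

lemma BL_self (c : Ex m κ → ℝ) (p : Po m κ) :
    (BL c p p).re = ∑ v ∈ p.support, c v * Complex.normSq (coeff v p) := by
  rw [BL_apply, Bw, Complex.re_sum]
  refine Finset.sum_congr rfl fun v _ => ?_
  rw [mul_assoc, mul_comm (starRingEnd ℂ (coeff v p)), Complex.mul_conj, ← Complex.ofReal_mul,
    Complex.ofReal_re]

lemma BL_self_nonneg {c : Ex m κ → ℝ} (hc : ∀ v, 0 ≤ c v) (p : Po m κ) :
    0 ≤ (BL c p p).re := by
  rw [BL_self]
  exact Finset.sum_nonneg fun v _ => mul_nonneg (hc v) (Complex.normSq_nonneg _)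

/-- `Re B(p, q) ≤ (B(p, p) + B(q, q)) / 2`. -/
lemma BL_cs {c : Ex m κ → ℝ} (hc : ∀ v, 0 ≤ c v) (p q : Po m κ) :
    2 * (BL c p q).re ≤ (BL c p p).re + (BL c q q).re := by
  have h := BL_self_nonneg hc (p - q)
  simp only [map_sub, AddMonoidHom.sub_apply] at h
  have h2 : (BL c q p).re = (BL c p q).re := by
    rw [BL_herm c p q, Complex.conj_re]
  simp only [Complex.sub_re] at h
  linarith

/-- Two additive operators which are adjoint on monomials are adjoint. -/
lemma adj_of (c : Ex m κ → ℝ) (T T' : Po m κ →ₗ[ℂ] Po m κ)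
    (h : ∀ (u : Ex m κ) (x : ℂ) (q : Po m κ), BL c (T (monomial u x)) q =
      BL c (monomial u x) (T' q)) (p q : Po m κ) : BL c (T p) q = BL c p (T' q) := by
  induction p using MvPolynomial.induction_on' with
  | monomial u x => exact h u x q
  | add p p' hp hp' =>
    rw [map_add, map_add, map_add, AddMonoidHom.add_apply, AddMonoidHom.add_apply, hp, hp']

/-! ### The operators -/

/-- The linear map with given values on the monomials. -/
noncomputable def mkL (g : Ex m κ → Po m κ) : Po m κ →ₗ[ℂ] Po m κ :=
  (MvPolynomial.basisMonomials (Fin m × κ) ℂ).constr ℂ g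

lemma mkL_monomial (g : Ex m κ → Po m κ) (v : Ex m κ) (a : ℂ) :
    mkL g (monomial v a) = a • g v := by
  have h : (monomial v a : Po m κ) = a • MvPolynomial.basisMonomials (Fin m × κ) ℂ v := by
    rw [coe_basisMonomials, smul_monomial, smul_eq_mul, mul_one]
  rw [h, map_smul, mkL, Module.Basis.constr_basis]

lemma ext_mono {T T' : Po m κ →ₗ[ℂ] Po m κ}
    (h : ∀ (v : Ex m κ), T (monomial v 1) = T' (monomial v 1)) : T = T' := by
  refine (MvPolynomial.basisMonomials (Fin m × κ) ℂ).ext fun v => ?_
  rw [coe_basisMonomials]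
  exact h v

/-- The degree of an exponent in the column `j`. -/
def cg (v : Ex m κ) (j : κ) : ℕ := ∑ i, v (i, j)

variable [DecidableEq κ]

/-- The unit exponent. -/
noncomputable def e1 (i : Fin m) (j : κ) : Ex m κ := Finsupp.single (i, j) 1

lemma e1_self (i : Fin m) (j : κ) : e1 i j (i, j) = 1 := Finsupp.single_eq_same

lemma e1_apply (i k : Fin m) (j l : κ) : e1 i j (k, l) = if i = k ∧ j = l then 1 else 0 := by
  rw [e1, Finsupp.single_apply]
  simp only [Prod.mk.injEq]

lemma cg_add (v : Ex m κ) (i : Fin m) (j l : κ) :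
    cg (v + e1 i j) l = cg v l + if j = l then 1 else 0 := by
  simp only [cg, Finsupp.add_apply, Finset.sum_add_distrib, e1_apply]
  congr 1
  by_cases h : j = l
  · simp [h]
  · simp [h]

lemma sub_add_e1 {v : Ex m κ} {i : Fin m} {j : κ} (h : 1 ≤ v (i, j)) :
    v - e1 i j + e1 i j = v := by
  ext x
  rw [Finsupp.add_apply, Finsupp.tsub_apply]
  by_cases hx : x = (i, j)
  · subst hx
    rw [e1_self]
    omega
  · have : e1 i j x = 0 := by
      rw [e1, Finsupp.single_apply, if_neg (Ne.symm hx)]
    omega

lemma add_sub_e1 (v : Ex m κ) (i : Fin m) (j : κ) : v + e1 i j - e1 i j = v := by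
  ext x
  rw [Finsupp.tsub_apply, Finsupp.add_apply]
  omega

/-- The derivative in the column `j`, on the monomials of degree at most `s` in this column. -/
noncomputable def dc (s : ℕ) (i : Fin m) (j : κ) : Po m κ →ₗ[ℂ] Po m κ :=
  mkL fun v => if cg v j ≤ s then monomial (v - e1 i j) (v (i, j) : ℂ) else 0

/-- The raising operator in the column `j`. -/
noncomputable def fc (s : ℕ) (i : Fin m) (j : κ) : Po m κ →ₗ[ℂ] Po m κ :=
  mkL fun v => monomial (v + e1 i j) ((s - cg v j : ℕ) : ℂ)

/-- `x_kj d_ij` on the monomials of degree at most `s` in the column `j`. -/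
noncomputable def xd (s : ℕ) (k i : Fin m) (j : κ) : Po m κ →ₗ[ℂ] Po m κ :=
  mkL fun v => if cg v j ≤ s then monomial (v - e1 i j + e1 k j) (v (i, j) : ℂ) else 0

/-- The diagonal operator `(s - n_j)^+`. -/
noncomputable def aj (s : ℕ) (j : κ) : Po m κ →ₗ[ℂ] Po m κ :=
  mkL fun v => monomial v ((s - cg v j : ℕ) : ℂ)

/-- The diagonal operator `n_j` for `n_j ≤ s`. -/
noncomputable def dj (s : ℕ) (j : κ) : Po m κ →ₗ[ℂ] Po m κ :=
  mkL fun v => if cg v j ≤ s then monomial v (cg v j : ℂ) else 0

lemma coeff_dc (s : ℕ) (i : Fin m) (j : κ) (q : Po m κ) (u : Ex m κ) :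
    coeff u (dc s i j q) = if cg u j < s then ((u (i, j) : ℂ) + 1) * coeff (u + e1 i j) q
      else 0 := by
  induction q using MvPolynomial.induction_on' with
  | monomial v y =>
    rw [dc, mkL_monomial, coeff_monomial]
    by_cases hv : v = u + e1 i j
    · subst hv
      rw [if_pos rfl, cg_add, if_pos rfl, add_sub_e1]
      by_cases h : cg u j < s
      · rw [if_pos (by omega), if_pos h, coeff_smul, coeff_monomial, if_pos rfl,
          Finsupp.add_apply, e1_self, smul_eq_mul]
        push_cast
        ring
      · rw [if_neg (by omega), if_neg h, smul_zero, coeff_zero]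
    · rw [if_neg hv, mul_zero, ite_self]
      split_ifs with h
      · rw [coeff_smul, coeff_monomial]
        by_cases h0 : v (i, j) = 0
        · rw [h0, Nat.cast_zero, ite_self, smul_zero]
        · rw [if_neg, smul_zero]
          intro h2
          apply hv
          rw [← h2, sub_add_e1 (by omega)]
      · rw [smul_zero, coeff_zero]
  | add p p' hp hp' =>
    rw [map_add, coeff_add, hp, hp', coeff_add]
    split_ifs
    · ring
    · ring

/-- The commutation relation in one column. -/
lemma comm_same (s : ℕ) (i k : Fin m) (j : κ) (v : Ex m κ) :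
    dc s i j (fc s k j (monomial v 1)) = fc s k j (dc s i j (monomial v 1)) +
      ((if i = k then aj s j (monomial v 1) else 0) - xd s k i j (monomial v 1)) := by
  simp only [dc, fc, xd, aj, mkL_monomial, one_smul]
  have hcg : cg (v + e1 k j) j = cg v j + 1 := by rw [cg_add, if_pos rfl]
  by_cases hn : cg v j ≤ s
  · rw [if_pos hn, if_pos hn]
    have hL : (if cg (v + e1 k j) j ≤ s then monomial (v + e1 k j - e1 i j)
        ((v + e1 k j) (i, j) : ℂ) else (0 : Po m κ)) =
        if cg v j < s then monomial (v + e1 k j - e1 i j) (((v + e1 k j) (i, j) : ℕ) : ℂ)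
          else 0 := by
      rw [hcg]
      by_cases h : cg v j < s
      · rw [if_pos (by omega), if_pos h]
      · rw [if_neg (by omega), if_neg h]
    rw [hL, mkL_monomial]
    have hvk : ((v + e1 k j) (i, j) : ℕ) = v (i, j) + if i = k then 1 else 0 := by
      rw [Finsupp.add_apply, e1_apply]
      congr 1
      by_cases h : i = k
      · simp [h]
      · simp [h, Ne.symm h]
    rw [hvk]
    by_cases h0 : v (i, j) = 0
    · rw [h0]
      by_cases hik : i = k
      · subst hik
        rw [if_pos rfl, if_pos rfl, add_sub_e1]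
        by_cases h : cg v j < s
        · rw [if_pos h, smul_monomial]
          simp
        · have h1 : s - cg v j = 0 := by omega
          rw [if_neg h, h1]
          simp
      · simp [hik]
    · have h1 : 1 ≤ v (i, j) := by omega
      have hsw : v + e1 k j - e1 i j = v - e1 i j + e1 k j := by
        have h3 := sub_add_e1 h1
        conv_lhs => rw [← h3]
        rw [add_right_comm, add_sub_e1]
      have hcm : cg (v - e1 i j) j + 1 = cg v j := by
        have h3 := sub_add_e1 h1
        conv_rhs => rw [← h3]
        rw [cg_add, if_pos rfl]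
      have hs1 : s - cg (v - e1 i j) j = s - cg v j + 1 := by omega
      rw [hs1, hsw]
      have e2 : (if i = k then monomial v ((s - cg v j : ℕ) : ℂ) else (0 : Po m κ)) =
          monomial (v - e1 i j + e1 k j) (if i = k then ((s - cg v j : ℕ) : ℂ) else 0) := by
        by_cases hik : i = k
        · subst hik
          rw [if_pos rfl, if_pos rfl, sub_add_e1 h1]
        · rw [if_neg hik, if_neg hik, monomial_zero]
      have e3 : (if cg v j < s then monomial (v - e1 i j + e1 k j)
          ((v (i, j) + if i = k then 1 else 0 : ℕ) : ℂ) else (0 : Po m κ)) =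
          monomial (v - e1 i j + e1 k j) (if cg v j < s then
            ((v (i, j) + if i = k then 1 else 0 : ℕ) : ℂ) else 0) := by
        by_cases h : cg v j < s
        · rw [if_pos h, if_pos h]
        · rw [if_neg h, if_neg h, monomial_zero]
      rw [e2, e3, smul_monomial, smul_monomial, ← map_sub, ← map_add]
      congr 1
      rw [smul_eq_mul, smul_eq_mul]
      by_cases hik : i = k
      · rw [if_pos hik, if_pos hik]
        by_cases h : cg v j < s
        · rw [if_pos h]
          push_cast
          ring
        · have h1 : s - cg v j = 0 := by omega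
          rw [if_neg h, h1]
          push_cast
          ring
      · rw [if_neg hik, if_neg hik]
        by_cases h : cg v j < s
        · rw [if_pos h]
          push_cast
          ring
        · have h1 : s - cg v j = 0 := by omega
          rw [if_neg h, h1]
          push_cast
          ring
  · have h1 : s - cg v j = 0 := by omega
    rw [if_neg hn, if_neg hn, h1, Nat.cast_zero, zero_smul, map_zero, monomial_zero, ite_self,
      sub_zero, add_zero]

/-- Different columns commute. -/
lemma comm_diff (s : ℕ) (i k : Fin m) {j l : κ} (hjl : j ≠ l) (v : Ex m κ) :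
    dc s i j (fc s k l (monomial v 1)) = fc s k l (dc s i j (monomial v 1)) := by
  simp only [dc, fc, mkL_monomial, one_smul]
  have hcg : cg (v + e1 k l) j = cg v j := by
    rw [cg_add, if_neg (Ne.symm hjl), add_zero]
  have hvk : ((v + e1 k l) (i, j) : ℕ) = v (i, j) := by
    rw [Finsupp.add_apply, e1_apply, if_neg (fun h => hjl h.2.symm), add_zero]
  rw [hcg, hvk]
  by_cases hn : cg v j ≤ s
  · rw [if_pos hn, if_pos hn, mkL_monomial]
    by_cases h0 : v (i, j) = 0
    · rw [h0]
      simp
    · have h1 : 1 ≤ v (i, j) := by omega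
      have hsw : v + e1 k l - e1 i j = v - e1 i j + e1 k l := by
        have h3 := sub_add_e1 h1
        conv_lhs => rw [← h3]
        rw [add_right_comm, add_sub_e1]
      have hcm : cg (v - e1 i j) l = cg v l := by
        have h3 := sub_add_e1 h1
        conv_rhs => rw [← h3]
        rw [cg_add, if_neg hjl, add_zero]
      rw [hsw, hcm, smul_monomial, smul_monomial, smul_eq_mul, smul_eq_mul, mul_comm]
  · rw [if_neg hn, if_neg hn, smul_zero, map_zero]

/-- Euler's relation in one column. -/
lemma euler (s : ℕ) (j : κ) : ∑ k : Fin m, xd s k k j = dj s j := by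
  refine ext_mono fun v => ?_
  rw [LinearMap.sum_apply]
  simp only [xd, dj, mkL_monomial, one_smul]
  by_cases hn : cg v j ≤ s
  · simp only [if_pos hn]
    have h : ∀ k : Fin m, monomial (v - e1 k j + e1 k j) (v (k, j) : ℂ) =
        (monomial v (v (k, j) : ℂ) : Po m κ) := by
      intro k
      by_cases h0 : v (k, j) = 0
      · rw [h0, Nat.cast_zero, monomial_zero, monomial_zero]
      · rw [sub_add_e1 (by omega)]
    rw [Finset.sum_congr rfl fun k _ => h k, ← map_sum, cg]
    push_cast
    rfl
  · simp only [if_neg hn, Finset.sum_const_zero]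

end Vale.Agent.P181.DU.H556
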