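import Vale.Agent.P181.DU.H556.Pos

set_option autoImplicit false

/-!
# P181, DU: the positivity lemma, second part
-/

open MvPolynomial

namespace Vale.Agent.P181.DU.H556

variable {m : ℕ} {κ : Type} [Fintype κ] [DecidableEq κ]

/-- The weights. -/
noncomputable def cw (s : ℕ) (v : Ex m κ) : ℝ :=
  ∏ j : κ, ((∏ i, ((v (i, j)).factorial : ℝ)) * ((s - cg v j).factorial : ℝ))

omit [DecidableEq κ] in
lemma cw_pos (s : ℕ) (v : Ex m κ) : 0 < cw s v := by
  apply Finset.prod_pos
  intro j _
  apply mul_pos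
  · exact Finset.prod_pos fun i _ => by exact_mod_cast Nat.factorial_pos _
  · exact_mod_cast Nat.factorial_pos _

lemma cw_add (s : ℕ) (u : Ex m κ) (i : Fin m) (j : κ) :
    ((s - cg u j : ℕ) : ℝ) * cw s (u + e1 i j) =
      if cg u j < s then ((u (i, j) : ℝ) + 1) * cw s u else 0 := by
  split_ifs with h
  · have hrest : ∏ l ∈ Finset.univ.erase j, ((∏ k, (((u + e1 i j) (k, l)).factorial : ℝ)) *
        ((s - cg (u + e1 i j) l).factorial : ℝ)) =
        ∏ l ∈ Finset.univ.erase j, ((∏ k, ((u (k, l)).factorial : ℝ)) *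
        ((s - cg u l).factorial : ℝ)) := by
      apply Finset.prod_congr rfl
      intro l hl
      have hl' : j ≠ l := (Finset.ne_of_mem_erase hl).symm
      rw [cg_add, if_neg hl', add_zero]
      congr 1
      apply Finset.prod_congr rfl
      intro k _
      rw [Finsupp.add_apply, e1_apply, if_neg (fun h => hl' h.2), add_zero]
    have hcol : ∏ k, (((u + e1 i j) (k, j)).factorial : ℝ) =
        ((u (i, j) : ℝ) + 1) * ∏ k, ((u (k, j)).factorial : ℝ) := by
      rw [← Finset.mul_prod_erase Finset.univ _ (Finset.mem_univ i),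
        ← Finset.mul_prod_erase Finset.univ (fun k => ((u (k, j)).factorial : ℝ))
          (Finset.mem_univ i), ← mul_assoc]
      congr 1
      · rw [Finsupp.add_apply, e1_self, Nat.factorial_succ]
        push_cast
        ring
      · apply Finset.prod_congr rfl
        intro k hk
        have hk' : i ≠ k := (Finset.ne_of_mem_erase hk).symm
        rw [Finsupp.add_apply, e1_apply, if_neg (fun h => hk' h.1), add_zero]
    rw [cw, cw, ← Finset.mul_prod_erase Finset.univ _ (Finset.mem_univ j),
      ← Finset.mul_prod_erase Finset.univ (fun l => ((∏ k, ((u (k, l)).factorial : ℝ)) *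
        ((s - cg u l).factorial : ℝ))) (Finset.mem_univ j), hrest, hcol, cg_add, if_pos rfl]
    obtain ⟨d, hd⟩ : ∃ d, s - cg u j = d + 1 := ⟨s - cg u j - 1, by omega⟩
    have hd' : s - (cg u j + 1) = d := by omega
    rw [hd, hd', Nat.factorial_succ]
    push_cast
    ring
  · have h1 : s - cg u j = 0 := by omega
    rw [h1, Nat.cast_zero, zero_mul]

/-- The weights of the second form. -/
noncomputable def cp (s : ℕ) (j : κ) (v : Ex m κ) : ℝ :=
  if cg v j < s then cw s v / ((s - cg v j : ℕ) : ℝ) else 0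

omit [DecidableEq κ] in
lemma cp_nonneg (s : ℕ) (j : κ) (v : Ex m κ) : 0 ≤ cp s j v := by
  rw [cp]
  split_ifs
  · exact div_nonneg (cw_pos s v).le (Nat.cast_nonneg _)
  · exact le_rfl

lemma cp_mul (s : ℕ) (k : Fin m) (j : κ) {v : Ex m κ} (h : cg v j < s) :
    cw s (v + e1 k j) = cp s j v * ((v (k, j) : ℝ) + 1) := by
  have h1 := cw_add s v k j
  rw [if_pos h] at h1
  have h2 : ((s - cg v j : ℕ) : ℝ) ≠ 0 := by
    have : s - cg v j ≠ 0 := by omega
    exact_mod_cast this
  rw [cp, if_pos h]
  field_simp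
  linarith

lemma adj_fc (s : ℕ) (i : Fin m) (j : κ) (p q : Po m κ) :
    BL (cw s) (fc s i j p) q = BL (cw s) p (dc s i j q) := by
  refine adj_of _ _ _ (fun u x q => ?_) p q
  rw [fc, mkL_monomial, smul_monomial, BL_monomial_left, BL_monomial_left, coeff_dc]
  have h : ((s - cg u j : ℕ) : ℂ) * (cw s (u + e1 i j) : ℂ) =
      if cg u j < s then ((u (i, j) : ℂ) + 1) * (cw s u : ℂ) else 0 := by
    have h1 := cw_add s u i j
    split_ifs with h2
    · rw [if_pos h2] at h1
      exact_mod_cast h1
    · rw [if_neg h2] at h1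
      exact_mod_cast h1
  have h3 : starRingEnd ℂ (x • ((s - cg u j : ℕ) : ℂ)) =
      starRingEnd ℂ x * ((s - cg u j : ℕ) : ℂ) := by
    rw [smul_eq_mul, map_mul, Complex.conj_natCast]
  rw [h3]
  have h4 : (cw s (u + e1 i j) : ℂ) * (starRingEnd ℂ x * ((s - cg u j : ℕ) : ℂ)) *
      coeff (u + e1 i j) q = (((s - cg u j : ℕ) : ℂ) * (cw s (u + e1 i j) : ℂ)) *
      (starRingEnd ℂ x * coeff (u + e1 i j) q) := by ring
  rw [h4, h]
  split_ifs
  · ring
  · ring

lemma adj_fc' (s : ℕ) (i : Fin m) (j : κ) (p q : Po m κ) :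
    BL (cw s) p (fc s i j q) = BL (cw s) (dc s i j p) q := by
  rw [BL_herm (cw s) (fc s i j q) p, adj_fc, ← BL_herm]

lemma adj_xd (s : ℕ) (k i : Fin m) (j : κ) (p q : Po m κ) :
    BL (cw s) p (xd s k i j q) = BL (cp s j) (dc s k j p) (dc s i j q) := by
  induction q using MvPolynomial.induction_on' with
  | monomial v y =>
    rw [xd, dc, dc, mkL_monomial, mkL_monomial]
    by_cases hn : cg v j ≤ s
    · rw [if_pos hn, if_pos hn]
      by_cases h0 : v (i, j) = 0
      · rw [h0]
        simp
      · have h1 : 1 ≤ v (i, j) := by omega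
        have hcm : cg (v - e1 i j) j + 1 = cg v j := by
          have h3 := sub_add_e1 h1
          conv_rhs => rw [← h3]
          rw [cg_add, if_pos rfl]
        have hlt : cg (v - e1 i j) j < s := by omega
        rw [smul_monomial, smul_monomial, BL_monomial_right, BL_monomial_right]
        have h5 : coeff (v - e1 i j) (mkL (fun v : Ex m κ => if cg v j ≤ s then
            monomial (v - e1 k j) (v (k, j) : ℂ) else 0) p) =
            (((v - e1 i j) (k, j) : ℂ) + 1) * coeff (v - e1 i j + e1 k j) p := by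
          have := coeff_dc s k j p (v - e1 i j)
          rw [if_pos hlt] at this
          exact this
        rw [h5, cp_mul s k j hlt, map_mul, map_add, map_one, Complex.conj_natCast]
        push_cast
        ring
    · rw [if_neg hn, if_neg hn, smul_zero, map_zero, map_zero]
  | add q q' hq hq' =>
    rw [map_add, map_add, map_add, map_add, hq, hq']

/-- The truncated translation. -/
noncomputable def dO (s : ℕ) (i : Fin m) : Po m κ →ₗ[ℂ] Po m κ := ∑ j, dc s i j

/-- The raising operator. -/
noncomputable def fO (s : ℕ) (i : Fin m) : Po m κ →ₗ[ℂ] Po m κ := ∑ j, fc s i j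

lemma adj_fO (s : ℕ) (i : Fin m) (p q : Po m κ) :
    BL (cw s) (fO s i p) q = BL (cw s) p (dO s i q) := by
  rw [fO, dO, LinearMap.sum_apply, LinearMap.sum_apply, map_sum, map_sum,
    AddMonoidHom.finsetSum_apply]
  exact Finset.sum_congr rfl fun j _ => adj_fc s i j p q

lemma adj_fO' (s : ℕ) (i : Fin m) (p q : Po m κ) :
    BL (cw s) p (fO s i q) = BL (cw s) (dO s i p) q := by
  rw [BL_herm (cw s) (fO s i q) p, adj_fO, ← BL_herm]

/-- The commutation relation. -/
lemma comm_O (s : ℕ) (i k : Fin m) (q : Po m κ) :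
    dO s i (fO s k q) = fO s k (dO s i q) +
      ((if i = k then ∑ j, aj s j q else 0) - ∑ j, xd s k i j q) := by
  have h : dO s i ∘ₗ fO s k = fO s k ∘ₗ dO s i +
      ((if i = k then ∑ j, aj s j else 0) - ∑ j, xd (κ := κ) s k i j) := by
    refine ext_mono fun v => ?_
    simp only [dO, fO, LinearMap.comp_apply, LinearMap.add_apply, LinearMap.sub_apply,
      LinearMap.sum_apply, map_sum]
    have h1 : ∀ j l : κ, dc s i j (fc s k l (monomial v 1)) =
        fc s k l (dc s i j (monomial v 1)) + if l = j then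
          ((if i = k then aj s j (monomial v 1) else 0) - xd s k i j (monomial v 1)) else 0 := by
      intro j l
      by_cases hjl : l = j
      · subst hjl
        rw [if_pos rfl]
        exact comm_same s i k l v
      · rw [if_neg hjl, add_zero]
        exact comm_diff s i k (Ne.symm hjl) v
    simp only [h1, Finset.sum_add_distrib]
    rw [Finset.sum_comm]
    congr 1
    · simp only [Finset.sum_ite_eq, Finset.mem_univ, if_true]
      rw [Finset.sum_sub_distrib]
      congr 1
      by_cases hik : i = k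
      · simp only [if_pos hik, LinearMap.sum_apply]
      · simp only [if_neg hik, Finset.sum_const_zero, LinearMap.zero_apply]
  have h2 := LinearMap.congr_fun h q
  rw [LinearMap.comp_apply, LinearMap.add_apply, LinearMap.sub_apply, LinearMap.comp_apply,
    LinearMap.sum_apply] at h2
  rw [h2]
  congr 2
  by_cases hik : i = k
  · simp only [if_pos hik, LinearMap.sum_apply]
  · simp only [if_neg hik, LinearMap.zero_apply]

omit [Fintype κ] [DecidableEq κ] in
lemma coeff_aj (s : ℕ) (j : κ) (q : Po m κ) (u : Ex m κ) :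
    coeff u (aj s j q) = ((s - cg u j : ℕ) : ℂ) * coeff u q := by
  classical
  induction q using MvPolynomial.induction_on' with
  | monomial v y =>
    rw [aj, mkL_monomial, coeff_smul, coeff_monomial, coeff_monomial]
    split_ifs with h
    · subst h
      rw [smul_eq_mul, mul_comm]
    · rw [smul_zero, mul_zero]
  | add p p' hp hp' => rw [map_add, coeff_add, hp, hp', coeff_add, mul_add]

omit [Fintype κ] [DecidableEq κ] in
lemma coeff_dj (s : ℕ) (j : κ) (q : Po m κ) (u : Ex m κ) :
    coeff u (dj s j q) = (if cg u j ≤ s then (cg u j : ℂ) else 0) * coeff u q := by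
  classical
  induction q using MvPolynomial.induction_on' with
  | monomial v y =>
    rw [dj, mkL_monomial, coeff_smul]
    by_cases hn : cg v j ≤ s
    · rw [if_pos hn, coeff_monomial, coeff_monomial]
      split_ifs with h h2
      · subst h
        rw [smul_eq_mul, mul_comm]
      · subst h
        exact absurd hn h2
      · rw [smul_zero, mul_zero]
      · rw [smul_zero, mul_zero]
    · rw [if_neg hn, coeff_zero, smul_zero, coeff_monomial]
      by_cases h2 : v = u
      · subst h2
        rw [if_neg hn, zero_mul]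
      · rw [if_neg h2, mul_zero]
  | add p p' hp hp' => rw [map_add, coeff_add, hp, hp', coeff_add, mul_add]

omit [Fintype κ] [DecidableEq κ] in
lemma BL_diag (c : Ex m κ → ℝ) (T : Po m κ →ₗ[ℂ] Po m κ) (w : Ex m κ → ℝ)
    (hT : ∀ q u, coeff u (T q) = (w u : ℂ) * coeff u q) (p : Po m κ) :
    (BL c p (T p)).re = ∑ v ∈ p.support, c v * w v * Complex.normSq (coeff v p) := by
  rw [BL_apply, Bw, Complex.re_sum]
  refine Finset.sum_congr rfl fun v _ => ?_
  rw [hT]
  have h : (c v : ℂ) * starRingEnd ℂ (coeff v p) * ((w v : ℂ) * coeff v p) =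
      ((c v * w v * Complex.normSq (coeff v p) : ℝ) : ℂ) := by
    push_cast
    rw [← Complex.mul_conj]
    ring
  rw [h, Complex.ofReal_re]

/-- **The positivity lemma.** -/
theorem posU (s : ℕ) (H : Fin m → Po m κ) (hcl : ∀ i k, dO s k (H i) = dO s i (H k))
    (hf : ∑ i, fO s i (H i) = 0)
    (hs : ∀ i v, coeff v (H i) ≠ 0 →
      ∑ j, (if cg v j ≤ s then cg v j else 0) < ∑ j, (s - cg v j)) (i : Fin m) : H i = 0 := by
  -- the identity
  have h0 : (0 : ℝ) = ∑ i, ∑ k, (BL (cw s) (fO s i (H i)) (fO s k (H k))).re := by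
    have h1 : BL (cw s) (∑ i, fO s i (H i)) (∑ k, fO s k (H k)) =
        ∑ i, ∑ k, BL (cw s) (fO s i (H i)) (fO s k (H k)) := by
      rw [map_sum (BL (cw s)), AddMonoidHom.finsetSum_apply]
      exact Finset.sum_congr rfl fun i _ => map_sum _ _ _
    rw [hf, map_zero] at h1
    have h2 := congrArg Complex.re h1
    rw [Complex.re_sum] at h2
    simp only [Complex.re_sum] at h2
    rw [Complex.zero_re] at h2
    exact h2
  have h1 : ∀ i k, (BL (cw s) (fO s i (H i)) (fO s k (H k))).re =
      (BL (cw s) (dO s k (H i)) (dO s k (H i))).re +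
      ((if i = k then ∑ j, (BL (cw s) (H i) (aj s j (H k))).re else 0) -
        ∑ j, (BL (cp s j) (dc s k j (H i)) (dc s i j (H k))).re) := by
    intro i k
    rw [adj_fO, comm_O, map_add, map_sub, adj_fO', ← hcl i k, Complex.add_re, Complex.sub_re,
      map_sum, Complex.re_sum]
    congr 2
    · by_cases hik : i = k
      · rw [if_pos hik, if_pos hik, map_sum, Complex.re_sum]
      · rw [if_neg hik, if_neg hik, map_zero, Complex.zero_re]
    · exact Finset.sum_congr rfl fun j _ => by rw [adj_xd]
  -- the cross terms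
  have h3 : ∑ i, ∑ k, ∑ j, (BL (cp s j) (dc s k j (H i)) (dc s i j (H k))).re ≤
      ∑ i, ∑ k, ∑ j, (BL (cp s j) (dc s k j (H i)) (dc s k j (H i))).re := by
    have h4 : ∑ i, ∑ k, ∑ j, (BL (cp s j) (dc s i j (H k)) (dc s i j (H k))).re =
        ∑ i, ∑ k, ∑ j, (BL (cp s j) (dc s k j (H i)) (dc s k j (H i))).re := Finset.sum_comm
    have h5 : 2 * ∑ i, ∑ k, ∑ j, (BL (cp s j) (dc s k j (H i)) (dc s i j (H k))).re ≤
        ∑ i, ∑ k, ∑ j, (BL (cp s j) (dc s k j (H i)) (dc s k j (H i))).re +
        ∑ i, ∑ k, ∑ j, (BL (cp s j) (dc s i j (H k)) (dc s i j (H k))).re := by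
      simp only [Finset.mul_sum, ← Finset.sum_add_distrib]
      exact Finset.sum_le_sum fun i _ => Finset.sum_le_sum fun k _ =>
        Finset.sum_le_sum fun j _ => BL_cs (cp_nonneg s j) _ _
    linarith
  have h6 : ∀ i, ∑ k, ∑ j, (BL (cp s j) (dc s k j (H i)) (dc s k j (H i))).re =
      ∑ j, (BL (cw s) (H i) (dj s j (H i))).re := by
    intro i
    rw [Finset.sum_comm]
    refine Finset.sum_congr rfl fun j _ => ?_
    rw [← euler, LinearMap.sum_apply, map_sum, Complex.re_sum]
    exact Finset.sum_congr rfl fun k _ => by rw [adj_xd]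
  have h7 : 0 ≤ ∑ i, ∑ k, (BL (cw s) (dO s k (H i)) (dO s k (H i))).re :=
    Finset.sum_nonneg fun i _ => Finset.sum_nonneg fun k _ =>
      BL_self_nonneg (fun v => (cw_pos s v).le) _
  have h8 : ∑ i, ((∑ j, (BL (cw s) (H i) (aj s j (H i))).re) -
      ∑ j, (BL (cw s) (H i) (dj s j (H i))).re) ≤ 0 := by
    simp only [h1, Finset.sum_add_distrib, Finset.sum_sub_distrib, Finset.sum_ite_eq,
      Finset.mem_univ, if_true] at h0
    rw [Finset.sum_sub_distrib, ← Finset.sum_congr rfl fun i _ => h6 i]
    linarith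
  -- the diagonal terms
  have h9 : ∀ i, ((∑ j, (BL (cw s) (H i) (aj s j (H i))).re) -
      ∑ j, (BL (cw s) (H i) (dj s j (H i))).re) = ∑ v ∈ (H i).support, cw s v *
        ((∑ j, ((s - cg v j : ℕ) : ℝ)) - ∑ j, (if cg v j ≤ s then (cg v j : ℝ) else 0)) *
        Complex.normSq (coeff v (H i)) := by
    intro i
    have e1 : ∀ j, (BL (cw s) (H i) (aj s j (H i))).re = ∑ v ∈ (H i).support,
        cw s v * ((s - cg v j : ℕ) : ℝ) * Complex.normSq (coeff v (H i)) := fun j =>
      BL_diag _ _ (fun v => ((s - cg v j : ℕ) : ℝ)) (fun q u => by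
        rw [coeff_aj]
        push_cast
        rfl) _
    have e2 : ∀ j, (BL (cw s) (H i) (dj s j (H i))).re = ∑ v ∈ (H i).support,
        cw s v * (if cg v j ≤ s then (cg v j : ℝ) else 0) *
          Complex.normSq (coeff v (H i)) := fun j =>
      BL_diag _ _ (fun v => (if cg v j ≤ s then (cg v j : ℝ) else 0)) (fun q u => by
        rw [coeff_dj]
        split_ifs
        · push_cast
          rfl
        · push_cast
          rfl) _
    simp only [e1, e2]
    rw [Finset.sum_comm, Finset.sum_comm (s := Finset.univ) (t := (H i).support)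
      (f := fun j v => cw s v * (if cg v j ≤ s then (cg v j : ℝ) else 0) *
          Complex.normSq (coeff v (H i))), ← Finset.sum_sub_distrib]
    refine Finset.sum_congr rfl fun v _ => ?_
    rw [← Finset.sum_mul, ← Finset.mul_sum, ← Finset.sum_mul, ← Finset.mul_sum]
    ring
  have h10 : ∀ i, ∀ v ∈ (H i).support, 0 < cw s v *
      ((∑ j, ((s - cg v j : ℕ) : ℝ)) - ∑ j, (if cg v j ≤ s then (cg v j : ℝ) else 0)) *
      Complex.normSq (coeff v (H i)) := by
    intro i v hv
    have hv' : coeff v (H i) ≠ 0 := mem_support_iff.1 hv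
    apply mul_pos
    · apply mul_pos (cw_pos s v)
      have := hs i v hv'
      have h11 : ((∑ j, (if cg v j ≤ s then cg v j else 0) : ℕ) : ℝ) <
          ((∑ j, (s - cg v j) : ℕ) : ℝ) := by exact_mod_cast this
      push_cast at h11
      have h12 : ∑ j, (if cg v j ≤ s then (cg v j : ℝ) else 0) =
          ∑ j, ((if cg v j ≤ s then cg v j else 0 : ℕ) : ℝ) :=
        Finset.sum_congr rfl fun j _ => by split_ifs <;> simp
      have h13 : ∑ j, ((s - cg v j : ℕ) : ℝ) = ((∑ j, (s - cg v j) : ℕ) : ℝ) := by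
        push_cast
        rfl
      rw [h12, h13, ← Nat.cast_sum, sub_pos]
      exact_mod_cast this
    · exact Complex.normSq_pos.2 hv'
  have h14 : ∀ i, 0 ≤ ((∑ j, (BL (cw s) (H i) (aj s j (H i))).re) -
      ∑ j, (BL (cw s) (H i) (dj s j (H i))).re) := by
    intro i
    rw [h9 i]
    exact Finset.sum_nonneg fun v hv => (h10 i v hv).le
  have h15 : ((∑ j, (BL (cw s) (H i) (aj s j (H i))).re) -
      ∑ j, (BL (cw s) (H i) (dj s j (H i))).re) = 0 := by
    have h16 := (Finset.sum_eq_zero_iff_of_nonneg fun i _ => h14 i).1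
      (le_antisymm h8 (Finset.sum_nonneg fun i _ => h14 i))
    exact h16 i (Finset.mem_univ i)
  rw [h9 i] at h15
  have h17 : (H i).support = ∅ := by
    by_contra hne
    obtain ⟨v, hv⟩ := Finset.nonempty_of_ne_empty hne
    have h18 := Finset.sum_pos (fun v hv => h10 i v hv) ⟨v, hv⟩
    linarith
  exact MvPolynomial.support_eq_empty.1 h17

end Vale.Agent.P181.DU.H556
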