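import Vale.Agent.P181.DU.H556.Inter
import Vale.Agent.P181.DU.H248.C

set_option autoImplicit false

/-!
# P181, DU: stability of the symmetric highest weight polynomials under `∑ f_i t_i`
-/

open MvPolynomial

namespace Vale.Agent.P181.DU.H556

open Vale.Agent.P181.T4 (HW rowOp rowOp_apply)
open Vale.Agent.P181.DU.H248 (MD mem_MD)

variable {m : ℕ} {κ : Type} [Fintype κ] [DecidableEq κ]

omit [Fintype κ] in
lemma fc_eq (s : ℕ) (i : Fin m) (j : κ) (p : Po m κ) : fc s i j p = X (i, j) * aj s j p := by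
  have h : fc s i j = LinearMap.mulLeft ℂ (X (i, j)) ∘ₗ (aj s j : Po m κ →ₗ[ℂ] Po m κ) := by
    refine ext_mono fun v => ?_
    rw [LinearMap.comp_apply, LinearMap.mulLeft_apply, fc, aj, mkL_monomial, mkL_monomial,
      one_smul, one_smul, X, monomial_mul, one_mul, e1, add_comm]
  rw [h]
  rfl

lemma fO_eq (s : ℕ) (i : Fin m) (p : Po m κ) : fO s i p = ∑ j, X (i, j) * aj s j p := by
  rw [fO, LinearMap.sum_apply]
  exact Finset.sum_congr rfl fun j _ => fc_eq s i j p

omit [DecidableEq κ] in
lemma rowOp_mono (k l : Fin m) (v : Ex m κ) :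
    rowOp k l (monomial v 1 : Po m κ) =
      ∑ c, monomial (v - Finsupp.single (l, c) 1 + Finsupp.single (k, c) 1) (v (l, c) : ℂ) := by
  rw [rowOp_apply]
  refine Finset.sum_congr rfl fun c _ => ?_
  rw [pderiv_monomial, X, monomial_mul, one_mul, one_mul, add_comm]

lemma rowOp_aj (s : ℕ) (k l : Fin m) (j : κ) (p : Po m κ) :
    rowOp k l (aj s j p) = aj s j (rowOp k l p) := by
  have h : rowOp k l ∘ₗ aj s j = aj s j ∘ₗ (rowOp k l : Po m κ →ₗ[ℂ] Po m κ) := by
    refine ext_mono fun v => ?_
    rw [LinearMap.comp_apply, LinearMap.comp_apply, rowOp_mono, map_sum]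
    have h1 : (aj s j (monomial v 1) : Po m κ) = ((s - cg v j : ℕ) : ℂ) • monomial v 1 := by
      rw [aj, mkL_monomial, one_smul, smul_monomial, smul_eq_mul, mul_one]
    rw [h1, map_smul, rowOp_mono, Finset.smul_sum]
    refine Finset.sum_congr rfl fun c _ => ?_
    rw [aj, mkL_monomial, smul_monomial, smul_monomial, smul_eq_mul, smul_eq_mul, mul_comm]
    by_cases h0 : v (l, c) = 0
    · rw [h0, Nat.cast_zero, zero_mul, zero_mul, monomial_zero]
    · have h2 : 1 ≤ v (l, c) := by omega
      have h3 : cg (v - Finsupp.single (l, c) 1 + Finsupp.single (k, c) 1) j = cg v j := by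
        have h4 := sub_add_e1 h2
        have e1' : cg (v - e1 l c + e1 k c) j = cg (v - e1 l c + e1 l c) j := by
          rw [cg_add, cg_add]
        rw [h4] at e1'
        exact e1'
      rw [h3]
  exact LinearMap.congr_fun h p

omit [DecidableEq κ] in
lemma rowOp_mul_X (k l i : Fin m) (j : κ) (q : Po m κ) :
    rowOp k l (X (i, j) * q) = X (i, j) * rowOp k l q + if i = l then X (k, j) * q else 0 := by
  classical
  rw [rowOp_apply, rowOp_apply, Finset.mul_sum]
  have h : ∀ c, X (k, c) * pderiv (l, c) (X (i, j) * q) =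
      X (i, j) * (X (k, c) * pderiv (l, c) q) +
        if c = j then (if i = l then X (k, j) * q else 0) else 0 := by
    intro c
    rw [Derivation.leibniz, smul_eq_mul, smul_eq_mul, pderiv_X]
    by_cases hc : c = j
    · subst hc
      rw [if_pos rfl]
      by_cases hi : i = l
      · subst hi
        rw [if_pos rfl, Pi.single_eq_same]
        ring
      · rw [if_neg hi, Pi.single_eq_of_ne (fun h => hi (congrArg Prod.fst h))]
        ring
    · rw [if_neg hc, Pi.single_eq_of_ne (fun h => hc (congrArg Prod.snd h).symm)]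
      ring
  rw [Finset.sum_congr rfl fun c _ => h c, Finset.sum_add_distrib, Finset.sum_ite_eq',
    if_pos (Finset.mem_univ j)]

lemma rowOp_fO (s : ℕ) (k l i : Fin m) (p : Po m κ) :
    rowOp k l (fO s i p) = fO s i (rowOp k l p) + if i = l then fO s k p else 0 := by
  rw [fO_eq, fO_eq, fO_eq, map_sum]
  have h : ∀ j, rowOp k l (X (i, j) * aj s j p) = X (i, j) * aj s j (rowOp k l p) +
      if i = l then X (k, j) * aj s j p else 0 := fun j => by
    rw [rowOp_mul_X, rowOp_aj]
  rw [Finset.sum_congr rfl fun j _ => h j, Finset.sum_add_distrib]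
  congr 1
  by_cases hi : i = l
  · simp only [if_pos hi]
  · simp only [if_neg hi, Finset.sum_const_zero]

omit [DecidableEq κ] in
lemma rowOp_tO (k l i : Fin m) (p : Po m κ) :
    rowOp k l (tO i p) = tO i (rowOp k l p) - if i = k then tO l p else 0 := by
  classical
  have h : tO i (rowOp k l p) = rowOp k l (tO i p) + if i = k then tO l p else 0 := by
    rw [rowOp_apply, rowOp_apply]
    simp only [tO, LinearMap.sum_apply, map_sum]
    change ∑ x, ∑ x_1, pderiv (i, x_1) (X (k, x) * pderiv (l, x) p) = _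
    have h1 : ∀ c j : κ, pderiv (i, j) (X (k, c) * pderiv (l, c) p) =
        X (k, c) * pderiv (l, c) (pderiv (i, j) p) +
          if j = c then (if i = k then pderiv (l, c) p else 0) else 0 := by
      intro c j
      rw [Derivation.leibniz, smul_eq_mul, smul_eq_mul, pderiv_X, pd_comm (i, j) (l, c)]
      by_cases hc : j = c
      · subst hc
        rw [if_pos rfl]
        by_cases hi : i = k
        · subst hi
          rw [if_pos rfl, Pi.single_eq_same]
          ring
        · rw [if_neg hi, Pi.single_eq_of_ne (fun h => hi (congrArg Prod.fst h).symm)]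
          ring
      · rw [if_neg hc, Pi.single_eq_of_ne (fun h => hc (congrArg Prod.snd h).symm)]
        ring
    simp only [h1, Finset.sum_add_distrib, Finset.sum_ite_eq', Finset.mem_univ, if_true]
    congr 1
    · refine Finset.sum_congr rfl fun c _ => ?_
      rw [Finset.mul_sum]
      rfl
    · by_cases hi : i = k
      · simp only [if_pos hi]
        rfl
      · simp only [if_neg hi, Finset.sum_const_zero]
  rw [h, add_sub_cancel_right]

lemma rowOp_L (s : ℕ) (k l : Fin m) (p : Po m κ) :
    rowOp k l (∑ i, fO s i (tO i p)) = ∑ i, fO s i (tO i (rowOp k l p)) := by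
  rw [map_sum]
  have h : ∀ i, rowOp k l (fO s i (tO i p)) = fO s i (tO i (rowOp k l p)) +
      ((if i = l then fO s k (tO l p) else 0) - if i = k then fO s k (tO l p) else 0) := by
    intro i
    rw [rowOp_fO, rowOp_tO, map_sub]
    by_cases hi : i = l
    · subst hi
      by_cases hk : i = k
      · subst hk
        simp only [if_true]
        abel
      · simp only [if_true, if_neg hk, map_zero]
        abel
    · by_cases hk : i = k
      · subst hk
        simp only [if_true, if_neg hi]
        abel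
      · simp only [if_neg hk, if_neg hi, map_zero]
        abel
  rw [Finset.sum_congr rfl fun i _ => h i, Finset.sum_add_distrib, Finset.sum_sub_distrib,
    Finset.sum_ite_eq', Finset.sum_ite_eq', if_pos (Finset.mem_univ _),
    if_pos (Finset.mem_univ _), sub_self, add_zero]

/-! ### Permutations of the columns -/

omit [Fintype κ] [DecidableEq κ] in
lemma ren_inj (e : Equiv.Perm κ) : Function.Injective (fun p : Fin m × κ => (p.1, e p.2)) := by
  intro p q h
  have h' : (p.1, e p.2) = (q.1, e q.2) := h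
  exact Prod.ext (Prod.mk.inj h').1 (e.injective (Prod.mk.inj h').2)

omit [Fintype κ] [DecidableEq κ] in
lemma cg_map (e : Equiv.Perm κ) (v : Ex m κ) (j : κ) :
    cg (v.mapDomain (fun p : Fin m × κ => (p.1, e p.2))) (e j) = cg v j := by
  rw [cg, cg]
  refine Finset.sum_congr rfl fun i _ => ?_
  exact Finsupp.mapDomain_apply (ren_inj e) v (i, j)

omit [DecidableEq κ] in
lemma ren_aj (s : ℕ) (e : Equiv.Perm κ) (j : κ) (p : Po m κ) :
    rename (fun p : Fin m × κ => (p.1, e p.2)) (aj s j p) =
      aj s (e j) (rename (fun p : Fin m × κ => (p.1, e p.2)) p) := by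
  have h : (rename (fun p : Fin m × κ => (p.1, e p.2))).toLinearMap ∘ₗ aj s j =
      aj s (e j) ∘ₗ (rename (R := ℂ) (fun p : Fin m × κ => (p.1, e p.2))).toLinearMap := by
    refine ext_mono fun v => ?_
    rw [LinearMap.comp_apply, LinearMap.comp_apply, aj, mkL_monomial, one_smul,
      AlgHom.toLinearMap_apply, AlgHom.toLinearMap_apply, rename_monomial, rename_monomial, aj,
      mkL_monomial, one_smul, cg_map]
  exact LinearMap.congr_fun h p

lemma ren_fO (s : ℕ) (e : Equiv.Perm κ) (i : Fin m) (p : Po m κ) :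
    rename (fun p : Fin m × κ => (p.1, e p.2)) (fO s i p) =
      fO s i (rename (fun p : Fin m × κ => (p.1, e p.2)) p) := by
  rw [fO_eq, fO_eq, map_sum, ← Equiv.sum_comp e
    (fun j => X (i, j) * aj s j (rename (fun p : Fin m × κ => (p.1, e p.2)) p))]
  refine Finset.sum_congr rfl fun j _ => ?_
  rw [map_mul, rename_X, ren_aj]

omit [DecidableEq κ] in
lemma ren_tO (e : Equiv.Perm κ) (i : Fin m) (p : Po m κ) :
    rename (fun p : Fin m × κ => (p.1, e p.2)) (tO i p) =
      tO i (rename (fun p : Fin m × κ => (p.1, e p.2)) p) := by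
  simp only [tO, LinearMap.sum_apply, map_sum]
  rw [← Equiv.sum_comp e (fun j => (pderiv (R := ℂ) (i, j)).toLinearMap
    (rename (fun p : Fin m × κ => (p.1, e p.2)) p))]
  refine Finset.sum_congr rfl fun j _ => ?_
  exact (pderiv_rename (ren_inj e) (i, j) p).symm

/-! ### Degrees -/

lemma coeff_fO (s : ℕ) (i : Fin m) (q : Po m κ) (u : Ex m κ) (h : coeff u (fO s i q) ≠ 0) :
    ∃ j, 1 ≤ u (i, j) ∧ cg u j ≤ s ∧ coeff (u - e1 i j) q ≠ 0 := by
  by_contra hcon
  push Not at hcon
  apply h
  rw [fO_eq, coeff_sum]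
  refine Finset.sum_eq_zero fun j _ => ?_
  rw [coeff_X_mul']
  split_ifs with h1
  · have h2 : 1 ≤ u (i, j) := by
      have := Finsupp.mem_support_iff.1 h1
      omega
    rw [coeff_aj]
    by_cases h3 : cg u j ≤ s
    · have h4 := hcon j h2 h3
      rw [show u - Finsupp.single (i, j) 1 = u - e1 i j from rfl, h4, mul_zero]
    · have h5 : cg (u - e1 i j) j + 1 = cg u j := by
        have h6 := sub_add_e1 h2
        conv_rhs => rw [← h6]
        rw [cg_add, if_pos rfl]
      have h7 : s - cg (u - e1 i j) j = 0 := by omega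
      rw [show u - Finsupp.single (i, j) 1 = u - e1 i j from rfl, h7, Nat.cast_zero, zero_mul]
  · rfl

/-- A monomial of `∑ f_i t_i p` comes from a monomial of `p`. -/
lemma coeff_L (s : ℕ) (p : Po m κ) (u : Ex m κ) (h : coeff u (∑ i, fO s i (tO i p)) ≠ 0) :
    ∃ i j l, 1 ≤ u (i, j) ∧ cg u j ≤ s ∧ coeff (u - e1 i j + e1 i l) p ≠ 0 := by
  rw [coeff_sum] at h
  obtain ⟨i, -, hi⟩ := Finset.exists_ne_zero_of_sum_ne_zero h
  obtain ⟨j, h1, h2, h3⟩ := coeff_fO s i _ u hi
  obtain ⟨l, h4⟩ := coeff_tO i p _ h3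
  exact ⟨i, j, l, h1, h2, h4⟩

lemma row_add (v : Ex m κ) (i k : Fin m) (j : κ) :
    ∑ l, (v + e1 i j) (k, l) = ∑ l, v (k, l) + if i = k then 1 else 0 := by
  simp only [Finsupp.add_apply, Finset.sum_add_distrib, e1_apply]
  congr 1
  by_cases h : i = k
  · simp [h]
  · simp [h]

/-- **[U3m]** -/
theorem stab {b a s : ℕ} (mu : Fin m → ℕ) (hs : s ≤ a) {p : Po m (Fin b)}
    (hp : p ∈ MD m b a mu) : ∑ i, fO s i (tO i p) ∈ MD m b a mu := by
  rw [mem_MD] at hp ⊢
  obtain ⟨⟨h1, h2⟩, h3, h4⟩ := hp
  refine ⟨⟨fun u hu k => ?_, fun k l hkl => ?_⟩, fun e => ?_, fun u hu c => ?_⟩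
  · obtain ⟨i, j, l, h5, h6, h7⟩ := coeff_L s p u hu
    have h8 := h1 _ h7 k
    rw [row_add] at h8
    have h9 := row_add (u - e1 i j) i k j
    rw [sub_add_e1 h5] at h9
    omega
  · rw [rowOp_L, h2 k l hkl]
    simp only [map_zero, Finset.sum_const_zero]
  · rw [map_sum]
    refine Finset.sum_congr rfl fun i _ => ?_
    rw [ren_fO, ren_tO, h3 e]
  · obtain ⟨i, j, l, h5, h6, h7⟩ := coeff_L s p u hu
    by_cases hc : j = c
    · subst hc
      exact h6.trans hs
    · have h8 : cg (u - e1 i j + e1 i l) c ≤ a := h4 _ h7 c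
      rw [cg_add] at h8
      have h9 := cg_add (u - e1 i j) i j c
      rw [sub_add_e1 h5, if_neg hc, add_zero] at h9
      change cg u c ≤ a
      omega

end Vale.Agent.P181.DU.H556
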